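import Mathlib

/-!
# P336, limited views: disjoint families of positions seen by few labels
-/

set_option autoImplicit false

namespace Vale.Agent.P336.R2.H946

open Finset

/-- number of variables with a smaller label -/
def off {N : ℕ} (π : Fin N → ℕ) (t : ℕ) : ℕ := (univ.filter fun v => π v < t).card

theorem off_lt {N : ℕ} (π : Fin N → ℕ) (v : Fin N) : off π (π v) < N := by
  have h : (univ.filter fun w => π w < π v) ⊂ (univ : Finset (Fin N)) := by
    rw [Finset.ssubset_univ_iff]
    intro h
    have := Finset.mem_univ v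
    rw [← h, mem_filter] at this
    exact lt_irrefl _ this.2
  have h1 := Finset.card_lt_card h
  rwa [Finset.card_univ, Fintype.card_fin] at h1

theorem block_le {N s : ℕ} (π : Fin N → ℕ)
    (hs : ∀ t, (univ.filter fun v => π v = t).card ≤ s) (hs1 : 1 ≤ s) (u : ℕ) :
    (univ.filter fun v => off π (π v) / s = u).card ≤ 2 * s := by
  rcases Finset.eq_empty_or_nonempty (univ.filter fun v => off π (π v) / s = u) with h | h
  · rw [h, Finset.card_empty]
    omega
  obtain ⟨v1, h1, hmax⟩ := Finset.exists_max_image _ π h
  obtain ⟨v0, h0, hmin⟩ := Finset.exists_min_image _ π h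
  have hsub : (univ.filter fun v => off π (π v) / s = u) ⊆
      ((univ.filter fun v => π v < π v1) \ (univ.filter fun v => π v < π v0)) ∪
        (univ.filter fun v => π v = π v1) := by
    intro v hv
    have e1 := hmax v hv
    have e0 := hmin v hv
    simp only [mem_union, mem_sdiff, mem_filter, mem_univ, true_and]
    omega
  have hsub2 : (univ.filter fun v => π v < π v0) ⊆ (univ.filter fun v => π v < π v1) := by
    intro v hv
    have e0 := hmax v0 h0
    simp only [mem_filter, mem_univ, true_and] at hv ⊢
    omega
  have hc := (Finset.card_le_card hsub).trans (Finset.card_union_le _ _)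
  rw [Finset.card_sdiff_of_subset hsub2] at hc
  have hu1 := (mem_filter.1 h1).2
  have hu0 := (mem_filter.1 h0).2
  have a1 := Nat.div_add_mod (off π (π v1)) s
  have a0 := Nat.div_add_mod (off π (π v0)) s
  have b1 := Nat.mod_lt (off π (π v1)) (show 0 < s by omega)
  rw [hu1] at a1
  rw [hu0] at a0
  have hs' := hs (π v1)
  have o1 : off π (π v1) = (univ.filter fun v => π v < π v1).card := rfl
  have o0 : off π (π v0) = (univ.filter fun v => π v < π v0).card := rfl
  omega

theorem exists_families {p m N s g a : ℕ} (hp : 1 ≤ p) (pos : Fin p × Fin m → Fin N)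
    (hpos : Function.Injective pos) (π : Fin N → ℕ)
    (hs : ∀ t, (Finset.univ.filter fun v => π v = t).card ≤ s) (hs1 : 1 ≤ s) (hsN : s ≤ N)
    (hg : 4 * s * p * g ≤ m) (ha : 4 * a * N ≤ m * s) :
    ∃ B : Fin p → Fin g → Finset (Fin m), (∀ i r, a ≤ (B i r).card) ∧
      ∀ T : Finset ℕ, T.card ≤ p →
        (∃ i, ∀ r, ∀ v ∈ B i r, π (pos (i, v)) ∉ T) ∨
        (∃ ρ : Fin p → Fin g, ∀ i r, r ≠ ρ i → ∀ v ∈ B i r, π (pos (i, v)) ∉ T) := by
  classical
  have _ := hp
  -- merged labels
  set M : ℕ → ℕ := fun t => off π t / s with hM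
  set G : ℕ := (N - 1) / s + 1 with hG
  have hsG : s * G ≤ 2 * N := by
    have h1 := Nat.mul_div_le (N - 1) s
    have h2 : s * G = s * ((N - 1) / s) + s := by rw [hG]; ring
    omega
  have hML : ∀ v, M (π v) < G := by
    intro v
    have h1 := off_lt π v
    have h2 : off π (π v) / s ≤ (N - 1) / s := Nat.div_le_div_right (by omega)
    simp only [hM, hG]
    omega
  let mass : Fin p → ℕ → ℕ := fun i u => (univ.filter fun v : Fin m => M (π (pos (i, v))) = u).card
  have hmass : ∀ i u, mass i u ≤ 2 * s := by
    intro i u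
    refine le_trans ?_ (block_le π hs hs1 u)
    refine Finset.card_le_card_of_injOn (fun v => pos (i, v)) ?_ ?_
    · intro v hv
      simp only [coe_filter, mem_univ, true_and, Set.mem_ofPred_eq] at hv ⊢
      exact hv
    · intro v _ w _ hvw
      have h1 := hpos hvw
      exact (Prod.mk.inj h1).2
  have hsum : ∀ i, ∑ u ∈ range G, mass i u = m := by
    intro i
    have h1 := Finset.card_eq_sum_card_fiberwise (s := (univ : Finset (Fin m))) (t := range G)
      (f := fun v => M (π (pos (i, v)))) (fun v _ => by
        simpa only [coe_range, Set.mem_Iio] using hML (pos (i, v)))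
    rw [Finset.card_univ, Fintype.card_fin] at h1
    exact h1.symm
  let good : Fin p → Finset ℕ := fun i => (range G).filter fun u => a ≤ mass i u
  have hGa : 2 * G * a ≤ m := by
    refine Nat.le_of_mul_le_mul_left (show s * (2 * G * a) ≤ s * m from ?_) hs1
    calc s * (2 * G * a) = 2 * a * (s * G) := by ring
      _ ≤ 2 * a * (2 * N) := Nat.mul_le_mul_left _ hsG
      _ = 4 * a * N := by ring
      _ ≤ m * s := ha
      _ = s * m := by ring
  have hgood : ∀ i, p * g ≤ (good i).card := by
    intro i
    have h1 := Finset.sum_filter_add_sum_filter_not (range G) (fun u => a ≤ mass i u) (mass i)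
    rw [hsum i] at h1
    have h2 : ∑ u ∈ (range G).filter (fun u => a ≤ mass i u), mass i u ≤
        (good i).card * (2 * s) := by
      refine (Finset.sum_le_card_nsmul _ _ (2 * s) fun u _ => hmass i u).trans ?_
      rw [smul_eq_mul]
    have h3 : ∑ u ∈ (range G).filter (fun u => ¬ a ≤ mass i u), mass i u ≤ G * a := by
      refine (Finset.sum_le_card_nsmul _ _ a fun u hu => ?_).trans ?_
      · have := (mem_filter.1 hu).2
        omega
      · rw [smul_eq_mul]
        refine Nat.mul_le_mul_right _ ((Finset.card_filter_le _ _).trans ?_)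
        rw [Finset.card_range]
    refine Nat.le_of_mul_le_mul_left (show 4 * s * (p * g) ≤ 4 * s * (good i).card from ?_)
      (by omega)
    have e1 : 4 * s * (p * g) = 4 * s * p * g := by ring
    have e2 : 2 * ((good i).card * (2 * s)) = 4 * s * (good i).card := by ring
    have e3 : 2 * (G * a) = 2 * G * a := by ring
    omega
  -- distinct good labels
  obtain ⟨u, hu, hug⟩ := (Finset.all_card_le_biUnion_card_iff_exists_injective
    (fun x : Fin p × Fin g => good x.1)).1 (by
      intro F
      rcases F.eq_empty_or_nonempty with h | ⟨x, hx⟩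
      · rw [h, Finset.card_empty]
        exact Nat.zero_le _
      · calc F.card ≤ Fintype.card (Fin p × Fin g) := Finset.card_le_univ F
          _ = p * g := by rw [Fintype.card_prod, Fintype.card_fin, Fintype.card_fin]
          _ ≤ (good x.1).card := hgood x.1
          _ ≤ _ := Finset.card_le_card (Finset.subset_biUnion_of_mem
            (fun x : Fin p × Fin g => good x.1) hx))
  refine ⟨fun i r => univ.filter fun v : Fin m => M (π (pos (i, v))) = u (i, r),
    fun i r => (mem_filter.1 (hug (i, r))).2, fun T hT => ?_⟩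
  have hT' : (T.image M).card ≤ p := Finset.card_image_le.trans hT
  have key : ∀ i r, u (i, r) ∉ T.image M → ∀ v ∈ univ.filter (fun v : Fin m =>
      M (π (pos (i, v))) = u (i, r)), π (pos (i, v)) ∉ T := by
    intro i r hir v hv hvT
    apply hir
    rw [← (mem_filter.1 hv).2]
    exact Finset.mem_image_of_mem M hvT
  by_cases h : ∃ i, ∀ r, u (i, r) ∉ T.image M
  · obtain ⟨i, hi⟩ := h
    exact Or.inl ⟨i, fun r => key i r (hi r)⟩
  · push Not at h
    choose ρ hρ using h
    refine Or.inr ⟨ρ, fun i r hr => key i r fun hir => ?_⟩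
    have hinj : Function.Injective fun j => u (j, ρ j) := fun j j' hj => (Prod.mk.inj (hu hj)).1
    have hsub : (univ : Finset (Fin p)).image (fun j => u (j, ρ j)) ⊆ T.image M := by
      intro x hx
      obtain ⟨j, _, rfl⟩ := Finset.mem_image.1 hx
      exact hρ j
    have heq := Finset.eq_of_subset_of_card_le hsub (by
      rw [Finset.card_image_of_injective _ hinj, Finset.card_univ, Fintype.card_fin]
      exact hT')
    rw [← heq] at hir
    obtain ⟨j, _, hj⟩ := Finset.mem_image.1 hir
    have h1 := Prod.mk.inj (hu hj)
    apply hr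
    rw [← h1.2, h1.1]

end Vale.Agent.P336.R2.H946
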