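import Mathlib.Analysis.SpecialFunctions.Pow.Real
import Mathlib.Analysis.SpecialFunctions.Pow.NNReal
import Mathlib.Analysis.SpecialFunctions.Log.Base
import Mathlib.Data.Nat.Sqrt
import Mathlib.Tactic

/-!
# P336: numerical part with an outer parameter
-/

set_option autoImplicit false

namespace Vale.Agent.P336.R2.H946

/-- numerical part, with a second parameter `r` and an arbitrary exponent `K` -/
theorem numerics_outer (K : ℕ) : ∃ C₀ : ℝ, ∀ N w k r : ℕ, 1 ≤ w → 1 ≤ k → 1 ≤ r →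
    (k : ℝ) * (2 : ℝ) ^ (C₀ * Real.sqrt w) ≤ N → (r : ℝ) * (2 : ℝ) ^ (C₀ * Real.sqrt w) ≤ N →
    ∃ p m : ℕ, 4 ≤ p ∧ m = N / 4 / p ∧ p * m ≤ N / 4 ∧ p ≤ N / 4 ∧ w * N ≤ p ^ 3 * m ∧
      k * 2 ^ (20 * p) ≤ m ∧ r * 2 ^ (K * p) ≤ m ∧
      (N : ℝ) / (r * (2 : ℝ) ^ (C₀ * Real.sqrt w)) ≤ (m : ℝ) / (r * 2 ^ (K * p)) := by
  refine ⟨8 * (K + 30), fun N w k r hw hk hr hN hrN => ?_⟩
  have hw1 : (1 : ℝ) ≤ w := by exact_mod_cast hw
  have hk1 : (1 : ℝ) ≤ k := by exact_mod_cast hk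
  have hr1 : (1 : ℝ) ≤ r := by exact_mod_cast hr
  have hK0 : (0 : ℝ) ≤ K := Nat.cast_nonneg _
  have hsw : (1 : ℝ) ≤ Real.sqrt w := Real.one_le_sqrt.mpr hw1
  obtain ⟨p, hp⟩ : ∃ p : ℕ, p = Nat.sqrt (14 * w) + 4 := ⟨_, rfl⟩
  have hp4 : 4 ≤ p := by omega
  have hpw : (p : ℝ) ≤ 8 * Real.sqrt w := by
    have h1 : ((Nat.sqrt (14 * w) : ℕ) : ℝ) ≤ 4 * Real.sqrt w := by
      have h2 : (Nat.sqrt (14 * w)) ^ 2 ≤ 14 * w := Nat.sqrt_le' _
      have h3 : ((Nat.sqrt (14 * w) : ℕ) : ℝ) ^ 2 ≤ 14 * w := by exact_mod_cast h2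
      have h4 : (4 * Real.sqrt w) ^ 2 = 16 * w := by
        rw [mul_pow, Real.sq_sqrt (by positivity)]; norm_num
      apply le_of_sq_le_sq _ (by positivity)
      rw [h4]; linarith
    rw [hp]; push_cast; linarith
  have hp14 : 14 * w ≤ p ^ 2 := by
    have h1 : 14 * w < (Nat.sqrt (14 * w) + 1) ^ 2 := Nat.lt_succ_sqrt' _
    have h2 : (Nat.sqrt (14 * w) + 1) ^ 2 ≤ p ^ 2 := Nat.pow_le_pow_left (by omega) 2
    omega
  have h30 : (2 : ℝ) ^ ((K + 30) * p) ≤ 2 ^ (8 * ((K : ℝ) + 30) * Real.sqrt w) := by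
    rw [← Real.rpow_natCast]
    apply Real.rpow_le_rpow_of_exponent_le (by norm_num)
    push_cast
    calc ((K : ℝ) + 30) * p ≤ ((K : ℝ) + 30) * (8 * Real.sqrt w) :=
          mul_le_mul_of_nonneg_left hpw (by positivity)
      _ = _ := by ring
  have hkN : (k : ℝ) * 2 ^ ((K + 30) * p) ≤ N :=
    (mul_le_mul_of_nonneg_left h30 (by linarith)).trans hN
  have hkNn : k * 2 ^ ((K + 30) * p) ≤ N := by exact_mod_cast hkN
  have hrNn : r * 2 ^ ((K + 30) * p) ≤ N := by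
    exact_mod_cast (mul_le_mul_of_nonneg_left h30 (by linarith)).trans hrN
  have hNn : 2 ^ ((K + 30) * p) ≤ N := le_trans (Nat.le_mul_of_pos_left _ hk) hkNn
  have hp2 : p < 2 ^ p := Nat.lt_two_pow_self
  obtain ⟨m, hm⟩ : ∃ m : ℕ, m = N / 4 / p := ⟨_, rfl⟩
  have hm2 : m = N / (4 * p) := by rw [hm, Nat.div_div_eq_div_mul]
  have hp0 : 0 < 4 * p := by omega
  have hmN : N < 4 * p * (m + 1) := by
    rw [hm2]
    exact Nat.lt_mul_div_succ N hp0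
  have h5p : 4 * p ≤ 2 ^ (10 * p) := by
    calc 4 * p ≤ 2 ^ 2 * 2 ^ p := by nlinarith
      _ = 2 ^ (2 + p) := by rw [pow_add]
      _ ≤ 2 ^ (10 * p) := Nat.pow_le_pow_right (by norm_num) (by omega)
  have h8p : 8 * p ≤ 2 ^ (4 * p) := by
    calc 8 * p ≤ 2 ^ 3 * 2 ^ p := by nlinarith
      _ = 2 ^ (3 + p) := by rw [pow_add]
      _ ≤ 2 ^ (4 * p) := Nat.pow_le_pow_right (by norm_num) (by omega)
  have hKp : 30 * p ≤ (K + 30) * p := Nat.mul_le_mul_right p (by omega)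
  have hN30 : 2 ^ (30 * p) ≤ N := (Nat.pow_le_pow_right (by norm_num) hKp).trans hNn
  have h3p : p ^ 3 ≤ N := by
    calc p ^ 3 ≤ (2 ^ p) ^ 3 := Nat.pow_le_pow_left hp2.le 3
      _ = 2 ^ (p * 3) := by rw [← pow_mul]
      _ ≤ 2 ^ (30 * p) := Nat.pow_le_pow_right (by norm_num) (by omega)
      _ ≤ N := hN30
  have hbig : ∀ b e : ℕ, e * p + 10 * p ≤ (K + 30) * p → b * 2 ^ ((K + 30) * p) ≤ N →
      b * 2 ^ (e * p) ≤ m := by
    intro b e he hb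
    by_contra hcon
    push Not at hcon
    have h1 : 4 * p * (m + 1) ≤ 2 ^ (10 * p) * (b * 2 ^ (e * p)) :=
      Nat.mul_le_mul h5p hcon
    have h2 : 2 ^ (10 * p) * (b * 2 ^ (e * p)) ≤ b * 2 ^ ((K + 30) * p) := by
      calc 2 ^ (10 * p) * (b * 2 ^ (e * p)) = b * 2 ^ (e * p + 10 * p) := by
            rw [pow_add]; ring
        _ ≤ _ := Nat.mul_le_mul_left _ (Nat.pow_le_pow_right (by norm_num) he)
    omega
  have hkm : k * 2 ^ (20 * p) ≤ m := hbig k 20 (by nlinarith) hkNn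
  have hrm : r * 2 ^ (K * p) ≤ m := hbig r K (by nlinarith) hrNn
  have hm1 : 1 ≤ m := le_trans (Nat.mul_pos hk (by positivity)) hkm
  refine ⟨p, m, hp4, hm, ?_, ?_, ?_, hkm, hrm, ?_⟩
  · rw [hm]; exact Nat.mul_div_le (N / 4) p
  · rw [Nat.le_div_iff_mul_le (by norm_num)]
    have h1 : 2 ^ (10 * p) ≤ 2 ^ (30 * p) := Nat.pow_le_pow_right (by norm_num) (by omega)
    omega
  · have h1 : 14 * w * N ≤ p ^ 2 * N := Nat.mul_le_mul_right N hp14
    have h2 : p ^ 2 * N ≤ p ^ 2 * (4 * p * (m + 1)) := Nat.mul_le_mul_left _ hmN.le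
    have h3 : p ^ 2 * (4 * p * (m + 1)) = 4 * (p ^ 3 * m) + 4 * p ^ 3 := by ring
    have h4 : N ≤ w * N := Nat.le_mul_of_pos_left _ hw
    have h5 : 14 * w * N = 14 * (w * N) := by ring
    omega
  · have h1 : N ≤ 2 ^ (4 * p) * m := by
      calc N ≤ 4 * p * (m + 1) := hmN.le
        _ ≤ 4 * p * (2 * m) := Nat.mul_le_mul_left _ (by omega)
        _ = 8 * p * m := by ring
        _ ≤ 2 ^ (4 * p) * m := Nat.mul_le_mul_right m h8p
    have h2 : (N : ℝ) ≤ 2 ^ (4 * p) * m := by exact_mod_cast h1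
    have hr0 : (0 : ℝ) < r := by linarith
    have hpos : (0 : ℝ) < 2 ^ (8 * ((K : ℝ) + 30) * Real.sqrt w) := by positivity
    rw [div_le_div_iff₀ (by positivity) (by positivity)]
    have h3 : (2 : ℝ) ^ (4 * p) * 2 ^ (K * p) ≤ 2 ^ (8 * ((K : ℝ) + 30) * Real.sqrt w) := by
      refine le_trans ?_ h30
      rw [← pow_add]
      exact pow_le_pow_right₀ (by norm_num) (by nlinarith)
    calc (N : ℝ) * (r * 2 ^ (K * p)) ≤ (2 ^ (4 * p) * m) * (r * 2 ^ (K * p)) :=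
          mul_le_mul_of_nonneg_right h2 (by positivity)
      _ = (m * r) * ((2 : ℝ) ^ (4 * p) * 2 ^ (K * p)) := by ring
      _ ≤ (m * r) * 2 ^ (8 * ((K : ℝ) + 30) * Real.sqrt w) :=
          mul_le_mul_of_nonneg_left h3 (by positivity)
      _ = _ := by ring

end Vale.Agent.P336.R2.H946
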