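import Mathlib.Analysis.SpecialFunctions.Pow.Real
import Mathlib.Analysis.SpecialFunctions.Pow.NNReal
import Mathlib.Analysis.SpecialFunctions.Log.Base
import Mathlib.Analysis.Complex.ExponentialBounds
import Mathlib.Data.Nat.Size
import Mathlib.Tactic

/-!
# P336: the final numerical step with exceptional gates
-/

set_option autoImplicit false

namespace Vale.Agent.P336.R2.H946

theorem finish {N r e S S' B R : ℕ} {Z₀ Z : ℝ} (hZ₀ : 1 ≤ Z₀) (hZ : 64 * Z₀ ≤ Z) (hN : 16 ≤ N)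
    (hr : 1 ≤ r) (he : 1 ≤ e) (heN : (e : ℝ) * Real.log N * (r * Z) ≤ N)
    (hR : (N : ℝ) / r ≤ R) (hS' : S' ≤ S * (2 * N + 2) ^ e)
    (h : 4 * (S' : ℝ) * (B * (1 / 2) ^ (R - Nat.size N)) ≤ 1 →
      (2 : ℝ) ^ ((N : ℝ) / (r * Z₀)) ≤ 2 * S' + 1) :
    (2 : ℝ) ^ ((N : ℝ) / (r * Z)) ≤ (max S B : ℕ) := by
  have hN' : (16 : ℝ) ≤ N := by exact_mod_cast hN
  have hr' : (1 : ℝ) ≤ r := by exact_mod_cast hr
  have he' : (1 : ℝ) ≤ e := by exact_mod_cast he
  have hZ0 : 0 < Z := by linarith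
  have hZ₀0 : 0 < Z₀ := by linarith
  have hr0 : (0 : ℝ) < r := by linarith
  have hl2 : (0.69 : ℝ) < Real.log 2 := by
    have := Real.log_two_gt_d9
    linarith
  have hl2' : Real.log 2 < 0.7 := by
    have := Real.log_two_lt_d9
    linarith
  set l := Real.log N with hl
  have hl4 : 4 * Real.log 2 ≤ l := by
    have h1 : Real.log ((2 : ℝ) ^ 4) ≤ Real.log N :=
      Real.log_le_log (by norm_num) (by norm_num; exact hN)
    rw [Real.log_pow] at h1
    exact_mod_cast h1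
  have hl0 : (2.7 : ℝ) < l := by linarith
  set T := (N : ℝ) / (r * Z) with hT
  have hrZ : 0 < (r : ℝ) * Z := by positivity
  have hTe : (e : ℝ) * l ≤ T := by
    rw [hT, le_div_iff₀ hrZ]
    exact heN
  have hTl : l ≤ T := by nlinarith
  have hT0 : (2.7 : ℝ) < T := by linarith
  by_contra hcon
  push Not at hcon
  have hS : (S : ℝ) ≤ 2 ^ T := by
    refine le_trans ?_ hcon.le
    exact_mod_cast le_max_left S B
  have hB : (B : ℝ) ≤ 2 ^ T := by
    refine le_trans ?_ hcon.le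
    exact_mod_cast le_max_right S B
  have h3 : (2 * N + 2 : ℝ) ≤ (2 : ℝ) ^ (5 * l) := by
    have h31 : (2 * N + 2 : ℝ) ≤ (N : ℝ) ^ 3 := by
      nlinarith [mul_nonneg (sub_nonneg.2 hN') (sub_nonneg.2 hN'), sq_nonneg ((N : ℝ) - 2)]
    have h33 : (N : ℝ) ^ 3 = Real.exp (3 * l) := by
      rw [hl, show (3 : ℝ) * Real.log N = Real.log ((N : ℝ) ^ 3) by rw [Real.log_pow]; norm_num,
        Real.exp_log (by positivity)]
    rw [Real.rpow_def_of_pos (by norm_num)]
    refine h31.trans ?_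
    rw [h33]
    refine Real.exp_le_exp.2 ?_
    nlinarith
  have h4 : ((2 * N + 2 : ℝ)) ^ e ≤ (2 : ℝ) ^ (5 * T) := by
    calc ((2 * N + 2 : ℝ)) ^ e ≤ ((2 : ℝ) ^ (5 * l)) ^ e :=
          pow_le_pow_left₀ (by positivity) h3 e
      _ = (2 : ℝ) ^ (5 * l * e) := by
          rw [← Real.rpow_natCast, ← Real.rpow_mul (by norm_num)]
      _ ≤ (2 : ℝ) ^ (5 * T) := by
          refine Real.rpow_le_rpow_of_exponent_le (by norm_num) ?_
          linarith
  have hS'T : (S' : ℝ) ≤ 2 ^ (6 * T) := by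
    have h1 : (S' : ℝ) ≤ S * (2 * N + 2) ^ e := by exact_mod_cast hS'
    calc (S' : ℝ) ≤ S * (2 * N + 2) ^ e := h1
      _ ≤ 2 ^ T * 2 ^ (5 * T) := mul_le_mul hS h4 (by positivity) (by positivity)
      _ = 2 ^ (6 * T) := by
        rw [← Real.rpow_add (by norm_num)]
        congr 1
        ring
  have hsize : (Nat.size N : ℝ) ≤ 2 * l := by
    have h0 : 0 < Nat.size N := Nat.size_pos.2 (by omega)
    have h1 : 2 ^ (Nat.size N - 1) ≤ N := Nat.lt_size.1 (Nat.sub_lt h0 one_pos)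
    have h2 : ((Nat.size N - 1 : ℕ) : ℝ) * Real.log 2 ≤ l := by
      rw [← Real.log_pow, hl]
      refine Real.log_le_log (by positivity) ?_
      exact_mod_cast h1
    rw [Nat.cast_sub h0] at h2
    push_cast at h2
    nlinarith
  have hZT : (N : ℝ) / r = T * Z := by
    rw [hT]
    field_simp
  have hZ64 : (64 : ℝ) ≤ Z := by linarith
  have hR64 : 64 * T ≤ R := by
    have h1 : 64 * T ≤ T * Z := by nlinarith
    linarith [hZT ▸ hR]
  have hRs : 62 * T ≤ ((R - Nat.size N : ℕ) : ℝ) := by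
    have h1 : Nat.size N ≤ R := by
      have h2 : (Nat.size N : ℝ) ≤ R := by linarith
      exact_mod_cast h2
    rw [Nat.cast_sub h1]
    linarith
  have hpow : ((1 : ℝ) / 2) ^ (R - Nat.size N) ≤ 2 ^ (-(62 * T)) := by
    rw [one_div, inv_pow, ← Real.rpow_natCast, ← Real.rpow_neg (by norm_num)]
    exact Real.rpow_le_rpow_of_exponent_le (by norm_num) (by linarith)
  have hsmall : 4 * (S' : ℝ) * (B * (1 / 2) ^ (R - Nat.size N)) ≤ 1 := by
    have h4' : (4 : ℝ) = 2 ^ (2 : ℝ) := by norm_num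
    calc 4 * (S' : ℝ) * (B * (1 / 2) ^ (R - Nat.size N))
        ≤ 4 * 2 ^ (6 * T) * (2 ^ T * 2 ^ (-(62 * T))) := by
          gcongr
      _ = 2 ^ (2 - 55 * T) := by
          rw [h4', ← Real.rpow_add (by norm_num), ← Real.rpow_add (by norm_num),
            ← Real.rpow_add (by norm_num)]
          congr 1
          ring
      _ ≤ 2 ^ (0 : ℝ) := Real.rpow_le_rpow_of_exponent_le (by norm_num) (by linarith)
      _ = 1 := Real.rpow_zero 2
  have h5 := h hsmall
  have h6 : 64 * T ≤ (N : ℝ) / (r * Z₀) := by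
    rw [le_div_iff₀ (by positivity)]
    have h7 : T * (r * Z) = N := by
      rw [hT]
      field_simp
    calc 64 * T * (r * Z₀) = T * r * (64 * Z₀) := by ring
      _ ≤ T * r * Z := mul_le_mul_of_nonneg_left hZ (by positivity)
      _ = T * (r * Z) := by ring
      _ = N := h7
  have h7 : (2 : ℝ) ^ (64 * T) ≤ 2 ^ (6 * T + 2) := by
    have h8 : (1 : ℝ) ≤ 2 ^ (6 * T) := Real.one_le_rpow (by norm_num) (by positivity)
    calc (2 : ℝ) ^ (64 * T) ≤ 2 ^ ((N : ℝ) / (r * Z₀)) :=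
          Real.rpow_le_rpow_of_exponent_le (by norm_num) h6
      _ ≤ 2 * S' + 1 := h5
      _ ≤ 2 ^ (6 * T) * 4 := by linarith
      _ = 2 ^ (6 * T + 2) := by
          rw [Real.rpow_add (by norm_num)]
          norm_num
  rw [Real.rpow_le_rpow_left_iff (by norm_num)] at h7
  linarith

end Vale.Agent.P336.R2.H946
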