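import Mathlib

/-! # P336: numerics for near-critical views (row Z3) -/

namespace Vale.Agent.P336.R2.H946

lemma S_ge {K₀ N p S r t : ℕ} (hN : 1 ≤ N) (hp : 2 ≤ p) (ht : 1 ≤ t) (hr : 1 ≤ r)
    (hKt : 1024 * (K₀ + 1) * r * p ^ 2 * 2 ^ p * N * t ≤ S ^ 2) (hpS : p * S ≤ N) :
    1024 * r * p ^ 3 * 2 ^ p * t ≤ S := by
  have h0 : 0 < S := by
    by_contra h
    have hS : S = 0 := by omega
    rw [hS] at hKt
    have : 0 < 1024 * (K₀ + 1) * r * p ^ 2 * 2 ^ p * N * t := by positivity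
    omega
  have h1 : 1024 * r * p ^ 2 * 2 ^ p * N * t ≤ S ^ 2 := by
    refine le_trans ?_ hKt
    have : 1024 * (K₀ + 1) * r * p ^ 2 * 2 ^ p * N * t =
      1024 * r * p ^ 2 * 2 ^ p * N * t + K₀ * (1024 * r * p ^ 2 * 2 ^ p * N * t) := by ring
    omega
  have h2 : 1024 * r * p ^ 2 * 2 ^ p * (p * S) * t ≤ 1024 * r * p ^ 2 * 2 ^ p * N * t := by
    gcongr
  have h3 : (1024 * r * p ^ 3 * 2 ^ p * t) * S ≤ S * S := by
    calc (1024 * r * p ^ 3 * 2 ^ p * t) * S = 1024 * r * p ^ 2 * 2 ^ p * (p * S) * t := by ring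
      _ ≤ S ^ 2 := h2.trans h1
      _ = S * S := by ring
  exact Nat.le_of_mul_le_mul_right h3 h0

lemma pow_34 (a b : ℕ) (h : 16 * b ≤ a) : (3 / 4 : ℝ) ^ a ≤ (1 / 2) ^ b := by
  calc (3 / 4 : ℝ) ^ a ≤ (3 / 4 : ℝ) ^ (16 * b) :=
        pow_le_pow_of_le_one (by norm_num) (by norm_num) h
    _ = ((3 / 4 : ℝ) ^ 16) ^ b := by rw [pow_mul]
    _ ≤ (1 / 2) ^ b := pow_le_pow_left₀ (by norm_num) (by norm_num) b

theorem near_numerics {K₀ N p S r t q : ℕ} (hN : 1 ≤ N) (hp : 2 ≤ p) (ht : 1 ≤ t) (hr : 1 ≤ r)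
    (hKt : 1024 * (K₀ + 1) * r * p ^ 2 * 2 ^ p * N * t ≤ S ^ 2) (hpS : p * S ≤ N)
    (hq : q * q ≤ N) :
    K₀ * r * p ^ 2 * 2 ^ p * N * (3 * t + 1) ≤ ((S - 2 * q) / 8) ^ 2 ∧
      p * ((S - 2 * q) / 8) ≤ N ∧
      ∀ M g : ℕ, M ≤ 2 ^ (3 * t) → g * 2 ^ 8 ≤ 2 ^ (r / 16) →
        (g : ℝ) * (3 / 4) ^ r + (M * p : ℕ) * (3 / 4 : ℝ) ^ (S - 2 * q) < 1 ∧
          (g : ℝ) * (1 / 2) ^ (r / 8) ≤ 1 / 16 := by
  have hS := S_ge hN hp ht hr hKt hpS
  have hp3 : 8 ≤ p ^ 3 := by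
    calc 8 = 2 ^ 3 := by norm_num
      _ ≤ p ^ 3 := Nat.pow_le_pow_left hp 3
  have h2p : p < 2 ^ p := Nat.lt_two_pow_self
  -- S ≥ 8192 * 2 ^ p * t
  have hS2 : 8192 * (2 ^ p * t) ≤ S := by
    calc 8192 * (2 ^ p * t) = 1024 * 1 * 8 * 2 ^ p * t := by ring
      _ ≤ 1024 * r * p ^ 3 * 2 ^ p * t := by gcongr
      _ ≤ S := hS
  have hpt : p + t ≤ 2 ^ p * t := by nlinarith
  have hS3 : 8192 * (p + t) ≤ S := le_trans (by omega) hS2
  -- q
  have hqS : 128 * q ≤ S := by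
    have h1 : (128 * q) * (128 * q) ≤ S * S := by
      have h2 : 16384 * N ≤ S ^ 2 := by
        refine le_trans ?_ hKt
        have h4 : 16 ≤ p ^ 2 * 2 ^ p := by
          have h5 : 4 ≤ p ^ 2 := by
            calc 4 = 2 ^ 2 := by norm_num
              _ ≤ p ^ 2 := Nat.pow_le_pow_left hp 2
          have h6 : 4 ≤ 2 ^ p := by
            calc 4 = 2 ^ 2 := by norm_num
              _ ≤ 2 ^ p := Nat.pow_le_pow_right (by norm_num) hp
          nlinarith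
        calc 16384 * N = 1024 * 1 * 1 * 16 * N * 1 := by ring
          _ ≤ 1024 * (K₀ + 1) * r * (p ^ 2 * 2 ^ p) * N * t := by
            gcongr
            omega
          _ = 1024 * (K₀ + 1) * r * p ^ 2 * 2 ^ p * N * t := by ring
      nlinarith
    exact Nat.mul_self_le_mul_self_iff.mp h1
  have hSbig : 128 ≤ S := by omega
  have hS1 : S ≤ 16 * ((S - 2 * q) / 8) := by omega
  refine ⟨?_, ?_, ?_⟩
  · have h1 : S ^ 2 ≤ 256 * ((S - 2 * q) / 8) ^ 2 := by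
      calc S ^ 2 ≤ (16 * ((S - 2 * q) / 8)) ^ 2 := Nat.pow_le_pow_left hS1 2
        _ = 256 * ((S - 2 * q) / 8) ^ 2 := by ring
    have h2 : 256 * (K₀ * r * p ^ 2 * 2 ^ p * N * (3 * t + 1)) ≤
        1024 * (K₀ + 1) * r * p ^ 2 * 2 ^ p * N * t := by
      calc 256 * (K₀ * r * p ^ 2 * 2 ^ p * N * (3 * t + 1))
          ≤ 256 * ((K₀ + 1) * r * p ^ 2 * 2 ^ p * N * (4 * t)) := by
            gcongr <;> omega
        _ = 1024 * (K₀ + 1) * r * p ^ 2 * 2 ^ p * N * t := by ring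
    omega
  · refine le_trans ?_ hpS
    exact Nat.mul_le_mul_left p (by omega)
  · intro M g hM hg
    have hg' : (g : ℝ) ≤ 2 ^ (r / 16) / 2 ^ 8 := by
      rw [le_div_iff₀ (by positivity)]
      exact_mod_cast hg
    have hM' : (M : ℝ) ≤ 2 ^ (3 * t) := by exact_mod_cast hM
    have e1 : (g : ℝ) * (3 / 4) ^ r ≤ 1 / 2 ^ 8 := by
      calc (g : ℝ) * (3 / 4) ^ r ≤ 2 ^ (r / 16) / 2 ^ 8 * (1 / 2) ^ (r / 16) := by
            gcongr
            exact pow_34 _ _ (by omega)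
        _ = 1 / 2 ^ 8 := by
            rw [div_mul_eq_mul_div, ← mul_pow]
            norm_num
    have hp' : (p : ℝ) ≤ 2 ^ p := by exact_mod_cast h2p.le
    have e2 : ((M * p : ℕ) : ℝ) * (3 / 4 : ℝ) ^ (S - 2 * q) ≤ 1 / 4 := by
      calc ((M * p : ℕ) : ℝ) * (3 / 4 : ℝ) ^ (S - 2 * q)
          ≤ (2 ^ (3 * t) * 2 ^ p) * (1 / 2) ^ (3 * t + p + 2) := by
            rw [Nat.cast_mul]
            gcongr
            exact pow_34 _ _ (by omega)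
        _ = 1 / 4 := by
            rw [← pow_add, pow_add (1 / 2 : ℝ) (3 * t + p) 2, ← mul_assoc, ← mul_pow]
            norm_num
    refine ⟨?_, ?_⟩
    · calc (g : ℝ) * (3 / 4) ^ r + (M * p : ℕ) * (3 / 4 : ℝ) ^ (S - 2 * q)
          ≤ 1 / 2 ^ 8 + 1 / 4 := add_le_add e1 e2
        _ < 1 := by norm_num
    · calc (g : ℝ) * (1 / 2) ^ (r / 8) ≤ 2 ^ (r / 16) / 2 ^ 8 * (1 / 2) ^ (r / 16) := by
            exact mul_le_mul hg' (pow_le_pow_of_le_one (by norm_num) (by norm_num) (by omega))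
              (by positivity) (by positivity)
        _ = 1 / 2 ^ 8 := by
            rw [div_mul_eq_mul_div, ← mul_pow]
            norm_num
        _ ≤ 1 / 16 := by norm_num

end Vale.Agent.P336.R2.H946
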